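import Vale.Agent.P108.Stmt

/-! Definitions shared by all files of the P108 development. -/

namespace Vale.Agent.P108

open MeasureTheory Filter
open scoped Classical

noncomputable section

/-- Two-sided real sequences. -/
abbrev Seq := ℤ → ℝ

/-- Forward second order recursion: pairs (x n, x (n - 1)). -/
def fw {G : Type} [AddCommGroup G] (g : ℤ → G → G) (a b : G) : ℕ → G × G
  | 0 => (a, b)
  | n + 1 => (g n (fw g a b n).1 - (fw g a b n).2, (fw g a b n).1)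

/-- The two-sided solution of x (j+1) + x (j-1) = g j (x j) with x 0 = a and x (-1) = b. -/
def bi {G : Type} [AddCommGroup G] (g : ℤ → G → G) (a b : G) (j : ℤ) : G :=
  if 0 ≤ j then (fw g a b j.toNat).1 else (fw (fun i => g (-1 - i)) b a (-1 - j).toNat).1

/-- The recursion. -/
def Rec {G : Type} [AddCommGroup G] (g : ℤ → G → G) (x : ℤ → G) : Prop :=
  ∀ j, x (j + 1) + x (j - 1) = g j (x j)

/-- Time shift. -/
def sh {G : Type} (c : ℤ) (x : ℤ → G) : ℤ → G := fun j => x (j + c)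
/-- Time reflection. -/
def rf {G : Type} (x : ℤ → G) : ℤ → G := fun j => x (-1 - j)

/-- Solutions of the Jacobi equation with potential V. -/
def IsSol (V ψ : Seq) : Prop := ∀ j, ψ (j + 1) + ψ (j - 1) = V j * ψ j
/-- The solution with data a at 0 and b at -1. -/
def gs (V : Seq) (a b : ℝ) : Seq := bi (fun j y => V j * y) a b
/-- The solution (in j) vanishing at l and equal to 1 at l + 1. -/
def T (V : Seq) (j l : ℤ) : ℝ := gs V 1 0 j * gs V 0 1 l - gs V 0 1 j * gs V 1 0 l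
/-- Squared Frobenius norm of the transfer matrix between times s and t. -/
def F (V : Seq) (s t : ℤ) : ℝ :=
  T V t (s - 1) ^ 2 + T V t s ^ 2 + T V (t - 1) (s - 1) ^ 2 + T V (t - 1) s ^ 2
/-- Squared norm of the vector (ψ j, ψ (j - 1)). -/
def nq (ψ : Seq) (j : ℤ) : ℝ := ψ j ^ 2 + ψ (j - 1) ^ 2
/-- Wronskian. -/
def Wr (φ ψ : Seq) (j : ℤ) : ℝ := φ j * ψ (j - 1) - φ (j - 1) * ψ j
/-- Bounded potentials. -/
def Bdd (K : ℝ) (V : Seq) : Prop := ∀ j, V j ^ 2 + 2 ≤ K ^ 2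
/-- The loss of expansion on the time interval from s to t. -/
def Ls (K : ℝ) (V : Seq) (s t : ℤ) : ℝ := (t - s : ℝ) - Real.log (F V s t) / (2 * Real.log K)

/-- Time 0 is bad on the left. -/
def LB (K θ : ℝ) (R : ℕ) (V : Seq) : Prop := ∃ i : ℕ, 1 ≤ i ∧ i ≤ R ∧ θ * i ≤ Ls K V (-i) 0
/-- Time 0 is bad on the right. -/
def RB (K θ : ℝ) (R : ℕ) (V : Seq) : Prop := ∃ i : ℕ, 1 ≤ i ∧ i ≤ R ∧ θ * i ≤ Ls K V 0 i
/-- Time 0 is good on the left up to distance N. -/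
def LG (K θ : ℝ) (N : ℕ) (V : Seq) : Prop := ∀ i : ℕ, 1 ≤ i → i ≤ N → Ls K V (-i) 0 ≤ θ * i
/-- The site 0 is critical. -/
def Crit (K θ : ℝ) (V : Seq) : Prop := |V 0| < K ^ (1 - θ)
/-- A solution decays on both sides over d steps. -/
def Wd (K θ : ℝ) (d : ℕ) (V : Seq) : Prop := ∃ ψ, IsSol V ψ ∧ nq ψ 0 = 1 ∧
  nq ψ (-d) ≤ K ^ (-(2 * (1 - θ) * d)) ∧ nq ψ d ≤ K ^ (-(2 * (1 - θ) * d))
/-- Indicator of a proposition. -/
def ind (p : Prop) : ℝ := if p then 1 else 0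
/-- The cost of the site 0. -/
def cost (K θs θc C1 : ℝ) (d0 R : ℕ) (V : Seq) : ℝ :=
  3 * θc + 2 * θs * (ind (LB K (1 / 10) R V) + ind (RB K (1 / 10) R V))
    + 10 / θs * ind (LB K θs R V ∧ RB K θs R V) + C1 * ind (Crit K θc V)
    + ∑ d ∈ Finset.Icc d0 R, 4 * (d : ℝ) * ind (Wd K (5 * θs) d V)

/-- The large parameter. -/
def KK (k : ℝ) : ℝ := 2 * Real.pi * k + 4
/-- The force on the line. -/
def gk (k x : ℝ) : ℝ := 2 * x + k * Real.sin (2 * Real.pi * x)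
/-- The derivative of the force. -/
def Vr (k x : ℝ) : ℝ := 2 + 2 * Real.pi * k * Real.cos (2 * Real.pi * x)
/-- Real orbits. -/
def IsOrb (k : ℝ) (x : Seq) : Prop := ∀ j, x (j + 1) + x (j - 1) = gk k (x j)
/-- The potential along an orbit. -/
def Vs (k : ℝ) (x : Seq) : Seq := fun j => Vr k (x j)
/-- The real orbit with x (-1) = z.1 and x 0 = z.2. -/
def XR (k : ℝ) (z : ℝ × ℝ) : Seq := bi (fun _ => gk k) z.2 z.1

/-- The torus. -/
abbrev T2 := UnitAddCircle × UnitAddCircle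
/-- The function cos (2 π x) on the circle. -/
def cs (x : UnitAddCircle) : ℝ := ((AddCircle.toCircle x : Circle) : ℂ).re
/-- The force on the circle. -/
def gT (k : ℝ) (x : UnitAddCircle) : UnitAddCircle := x + x + ((k * sn x : ℝ) : UnitAddCircle)
/-- The orbit on the circle with x (-1) = z.1 and x 0 = z.2. -/
def XT (k : ℝ) (z : T2) : ℤ → UnitAddCircle := bi (fun _ => gT k) z.2 z.1
/-- The potential along the orbit of a point of the torus. -/
def vT (k : ℝ) (z : T2) : Seq := fun j => 2 + 2 * Real.pi * k * cs (XT k z j)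
/-- The law of the potential. -/
def nu (k : ℝ) : Measure Seq := Measure.map (vT k) volume

/-- The decay rate used for sliding. -/
def om (k : ℝ) : ℝ := KK k ^ (-(4 / 5) : ℝ)
/-- Closeness of two sequences on the left of 0. -/
def Cl (k : ℝ) (N : ℕ) (c : ℝ) (x x' : Seq) : Prop := ∀ i : ℕ, 1 ≤ i → i ≤ N →
  |x' (-i) - x (-i)| ≤ c * om k ^ i ∧ |x' (-i - 1) - x (-i - 1)| ≤ c * om k ^ i
/-- A Dirichlet solution that decays to the left of 0. -/
def GoodL (k : ℝ) (N : ℕ) (p : ℤ) (V : Seq) : Prop := (p = -N ∨ p = -N - 1) ∧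
  ∃ φ, IsSol V φ ∧ φ p = 0 ∧ φ 0 = 1 ∧ ∀ i : ℕ, 1 ≤ i → i ≤ N → nq φ (-i) ≤ om k ^ (2 * i)
/-- The orbit x' is obtained from x by sliding with the site p fixed. -/
def Sl (k : ℝ) (N : ℕ) (p : ℤ) (x x' : Seq) : Prop :=
  IsOrb k x ∧ IsOrb k x' ∧ GoodL k N p (Vs k x) ∧ x' p = x p ∧ Cl k N 4 x x'

/-- Almost maximal growth up to r, seen from r. -/
def GLv (K : ℝ) (φ : Seq) (r : ℕ) : Prop :=
  ∀ m : ℕ, m < r → nq φ m ≤ nq φ r * K ^ (-(99 / 50 * ((r : ℝ) - m)))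
/-- Good level. -/
def Lv (K : ℝ) (φ : Seq) (r : ℕ) : Prop := 1 ≤ r ∧ GLv K φ r ∧ GLv K φ (r + 1)
/-- A matched pair of good levels (l on the left, r on the right). -/
def Pair (K : ℝ) (d : ℕ) (φ : Seq) (l r : ℕ) : Prop :=
  Lv K φ r ∧ Lv K (rf φ) l ∧ r + 2 ≤ d ∧ l + 2 ≤ d ∧
    |φ r| ≤ 100 * K ^ (1 / 2 : ℝ) * |rf φ l| ∧ |rf φ l| ≤ 100 * K ^ (1 / 2 : ℝ) * |φ r|
/-- The solution ψ does not decay fast at r. -/
def Hit (K : ℝ) (ψ : Seq) (r : ℕ) : Prop := K ^ (-(49 / 50) : ℝ) * |ψ r| < |ψ (r + 1)|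

end

end Vale.Agent.P108
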